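import Vale.Agent.P130.Main

namespace Vale.Agent.Results.P130.SimpleLebesgue

open MeasureTheory

theorem result : ∃ (X : Type) (_ : MeasurableSpace X) (_ : StandardBorelSpace X) (μ : Measure X)
    (_ : IsProbabilityMeasure μ) (T : X ≃ᵐ X), (∀ x : X, μ {x} = 0) ∧ MeasurePreserving T μ μ ∧
    ∃ (f : X → ℂ) (e : ℤ → Lp ℂ 2 μ), MemLp f 2 μ ∧ ∫ x, f x ∂μ = 0 ∧
      (∀ n : ℤ, e n =ᵐ[μ] fun x => f ((T.toEquiv ^ n) x)) ∧ Orthonormal ℂ e ∧
      ∀ g : Lp ℂ 2 μ,
        g ∈ (Submodule.span ℂ (Set.range e)).topologicalClosure ↔ ∫ x, g x ∂μ = 0 := by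
  obtain ⟨X, _, _, μ, _, T, h1, h2, f, h3, h4, h5, h6⟩ := Vale.Agent.P130.main
  have hmp : ∀ n : ℤ, MeasurePreserving ⇑(T.toEquiv ^ n) μ μ := by
    intro n
    induction n using Int.induction_on with
    | zero => exact MeasurePreserving.id μ
    | succ n ih => rw [zpow_add_one]; exact ih.comp h2
    | pred n ih => rw [zpow_sub_one]; exact ih.comp h2.symm
  have hL : ∀ n : ℤ, MemLp (fun x => f ((T.toEquiv ^ n) x)) 2 μ := fun n =>
    h3.comp_measurePreserving (hmp n)
  have hI : ∀ n : ℤ, ∫ x, f ((T.toEquiv ^ n) x) ∂μ = 0 := fun n => by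
    rw [← h4, ← integral_map (hmp n).aemeasurable (by rw [(hmp n).map_eq]; exact h3.1),
      (hmp n).map_eq]
  have he := fun n => (hL n).coeFn_toLp
  refine ⟨X, inferInstance, inferInstance, μ, inferInstance, T, h1, h2, f, fun n => (hL n).toLp _,
    h3, h4, he, orthonormal_iff_ite.2 fun i j => ?_, fun g => ⟨fun hg => ?_, fun hg => ?_⟩⟩
  · rw [Vale.Agent.P130.inner_eq (he i) (he j), h5]; simp [eq_comm]
  · have h7 : ∀ g : Lp ℂ 2 μ, inner ℂ ((memLp_const (1:ℂ)).toLp _ : Lp ℂ 2 μ) g = ∫ x, g x ∂μ :=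
      fun g => by rw [Vale.Agent.P130.inner_eq (MemLp.coeFn_toLp _) (ae_eq_refl _)]; simp
    rw [← h7, ← Submodule.mem_orthogonal_singleton_iff_inner_right]
    refine Submodule.topologicalClosure_minimal _ (Submodule.span_le.2 ?_)
      (Submodule.isClosed_orthogonal _) hg
    rintro _ ⟨n, rfl⟩
    rw [SetLike.mem_coe, Submodule.mem_orthogonal_singleton_iff_inner_right, h7,
      integral_congr_ae (he n), hI]
  · rw [← Submodule.orthogonal_orthogonal_eq_closure, Submodule.mem_orthogonal]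
    intro k hk
    have hki : Integrable k μ := (Lp.memLp k).integrable one_le_two
    have h8 := h6 (fun x => k x - ∫ x, k x ∂μ) ((Lp.memLp k).sub (memLp_const _))
      (by rw [integral_sub hki (integrable_const _)]; simp) fun n => by
        have h9 := (Submodule.mem_orthogonal _ _).1 hk _ (Submodule.subset_span ⟨n, rfl⟩)
        rw [Vale.Agent.P130.inner_eq (he n) (ae_eq_refl _)] at h9
        have h10 : MemLp (fun x => (starRingEnd ℂ) (f ((T.toEquiv ^ n) x))) 2 μ := (hL n).star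
        simp_rw [sub_mul]
        rw [integral_sub (f := fun x => k x * (starRingEnd ℂ) (f ((T.toEquiv ^ n) x)))
          ((Lp.memLp k).integrable_mul h10)
          ((h10.integrable one_le_two).const_mul _), h9, integral_const_mul, integral_conj, hI]
        simp
    rw [Vale.Agent.P130.inner_eq (f := fun _ => ∫ x, k x ∂μ)
      (h8.mono fun x hx => sub_eq_zero.1 hx) (ae_eq_refl _), integral_mul_const, hg, zero_mul]

end Vale.Agent.Results.P130.SimpleLebesgue
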